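import Vale.Agent.Lib.P062.QbC0
import Vale.Agent.Lib.P062.QbC1
import Vale.Agent.Lib.P062.QbC2
import Vale.Agent.Lib.P062.QbC3
import Vale.Agent.Lib.P062.QbC4
import Vale.Agent.Lib.P062.QbC5
import Vale.Agent.Lib.P062.QbC6
import Vale.Agent.Lib.P062.QbC7
import Vale.Agent.Lib.P062.QbC8
import Vale.Agent.Lib.P062.QbC9
import Vale.Agent.Lib.P062.QbC10
import Vale.Agent.Lib.P062.QbC11
import Vale.Agent.Lib.P062.QbC12
import Vale.Agent.Lib.P062.QbC13
import Vale.Agent.Lib.P062.QbC14

namespace Vale.Agent.P062.Qb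

set_option maxRecDepth 100000

theorem impOK0 : MemsOK imp0 := ⟨blk0 trivial, trivial⟩

theorem impOK1 : MemsOK imp1 := ⟨blk1 impOK0, impOK0⟩

theorem impOK2 : MemsOK imp2 := ⟨blk2 impOK1, impOK1⟩

theorem impOK3 : MemsOK imp3 := ⟨blk3 impOK2, impOK2⟩

theorem impOK4 : MemsOK imp4 := ⟨blk4 impOK3, impOK3⟩

theorem impOK5 : MemsOK imp5 := ⟨blk5 impOK4, impOK4⟩

theorem impOK6 : MemsOK imp6 := ⟨blk6 impOK5, impOK5⟩

theorem impOK7 : MemsOK imp7 := ⟨blk7 impOK6, impOK6⟩

theorem impOK8 : MemsOK imp8 := ⟨blk8 impOK7, impOK7⟩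

theorem impOK9 : MemsOK imp9 := ⟨blk9 impOK8, impOK8⟩

theorem impOK10 : MemsOK imp10 := ⟨blk10 impOK9, impOK9⟩

theorem impOK11 : MemsOK imp11 := ⟨blk11 impOK10, impOK10⟩

theorem impOK12 : MemsOK imp12 := ⟨blk12 impOK11, impOK11⟩

theorem impOK13 : MemsOK imp13 := ⟨blk13 impOK12, impOK12⟩

theorem impOK14 : MemsOK imp14 := ⟨blk14 impOK13, impOK13⟩

theorem impOK15 : MemsOK imp15 := ⟨blk15 impOK14, impOK14⟩

theorem impOK16 : MemsOK imp16 := ⟨blk16 impOK15, impOK15⟩

theorem impOK17 : MemsOK imp17 := ⟨blk17 impOK16, impOK16⟩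

theorem impOK18 : MemsOK imp18 := ⟨blk18 impOK17, impOK17⟩

theorem impOK19 : MemsOK imp19 := ⟨blk19 impOK18, impOK18⟩

theorem impOK20 : MemsOK imp20 := ⟨blk20 impOK19, impOK19⟩

theorem impOK21 : MemsOK imp21 := ⟨blk21 impOK20, impOK20⟩

theorem impOK22 : MemsOK imp22 := ⟨blk22 impOK21, impOK21⟩

theorem impOK23 : MemsOK imp23 := ⟨blk23 impOK22, impOK22⟩

theorem impOK24 : MemsOK imp24 := ⟨blk24 impOK23, impOK23⟩

theorem impOK25 : MemsOK imp25 := ⟨blk25 impOK24, impOK24⟩

theorem impOK26 : MemsOK imp26 := ⟨blk26 impOK25, impOK25⟩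

theorem impOK27 : MemsOK imp27 := ⟨blk27 impOK26, impOK26⟩

theorem impOK28 : MemsOK imp28 := ⟨blk28 impOK27, impOK27⟩

noncomputable def codeR : Mem := (Mem.cons (nat_lit 20) (nat_lit 0xe00000380000038002016000000e002c278000003801109e000000e002c278000003800189e000000e0008298000003800a8ce000000e018c37800000380200e6) Mem.nil)

noncomputable def roots : Mem := (Mem.cons (nat_lit 0x1000000000000000000000000000000000000000000000000000000000000000000) (nat_lit 0x3a000000ff000000ff000001ff800000ef800001ff800007ff000007ff000003ff000000bd0000000000000000000000000) (Mem.cons (nat_lit 0x1000000000000000000000000000000000000000000000000000000000000000000) (nat_lit 0x2e0000003f8000007f800000bfc00001ffc00001efc00001ffc00001ffc00001ff000000ff000000ba0000000800000000000000000) (Mem.cons (nat_lit 0x1000000000000000000000000000000000000000000000000000000000000000000) (nat_lit 0x294000003fc00000ffc00001ffc00001ffe00003aff00001fff00000fff00000ffc00000ffc00000ff8000004f0000000e0000000a0) (Mem.cons (nat_lit 0x1000000000000000000000000000000000000000000000000000000000000000000)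 (nat_lit 0x5800000ffc000007f800007ffe00007ffc00007fff0000fdfe0000fefe0000ffff0000ffff00007fff00007fff00007ffc00007ffc00000ffc00001ff4) (Mem.cons (nat_lit 0x1000000000000000000000000000000000000000000000000000000000000000000) (nat_lit 0x380000003c0000007f000001ff800001ff800001ffc000006f800001ffc00003ff800001ff800001ff800000ff000000fe0000007e0000004a0) (Mem.cons (nat_lit 0x1000000000000000000000000000000000000000000000000000000000000000000) (nat_lit 0x280000003e000000ffc00001ff8000007f800001ef800001ffc00000ffc00000ffc00000ff000000ff0000000800000000000000000) (Mem.cons (nat_lit 0x1000000000000000000000000000000000000000000000000000000000000000000) (nat_lit 0x2a000000ff0000007f000001ffc00000efc00001ffc00001ff000000ff000001ff0000003c0000000000000000000000000) (Mem.cons (nat_lit 0x1000000000000000000000000000000000000000000000000000000000000000000) (nat_lit 0x280000003e000000ffc00001ff8000007f800001ef800001ffc00000ffc00000ffc00000ff000000ff0000000800000000000000000) (Mem.cons (nat_lit 0x1000000000000000000000000000000000000000000000000000000000000000000)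 (nat_lit 0xfffc0000fffe0000fffe0000ffff0000ffff0000ffff0000ffff0000fcff0000ffff0000ffff0000ffff0000ffff0000ffff0000ffff0000fffe0000ffff) (Mem.cons (nat_lit 0x1000000000000000000000000000000000000000000000000000000000000000000) (nat_lit 0x2b4000003fe00001ffe00001ffe00003bfe00003efe00003ffe00001ffe00001ffe00003ffe000007fe000007fc000007f4000004a0) Mem.nil))))))))))

theorem rootsOK : MemOK roots :=
  check_sound (code := codeR) (imp := imp28) (by decide +kernel) impOK28

end Vale.Agent.P062.Qb
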